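import Vale.Agent.P011UQ.IF
import Vale.Agent.P011.H279.SqrtB

/-!
Projective actions of exponent two over a global function field are split by quadratic
extensions.
-/

set_option autoImplicit false
set_option linter.all false

namespace Vale.Agent.P011UQ7

open Module IntermediateField Polynomial Vale.Agent.P011 Vale.Agent.P011LD Vale.Agent.P011LQ
  Vale.Agent.P011.W Vale.Agent.P011.H738 Vale.Agent.P011.H271 Vale.Agent.P011UQ

/-- Almost all places split the algebra. -/
theorem spl_ae {F B : Type} [Field F] [GFF F] [DivisionRing B] [Algebra F B]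
    [FiniteDimensional F B] [Algebra.IsCentral F B] {b : ℕ} (hB : finrank F B = b ^ 2) :
    ∃ S : Finset (Place F), ∀ v ∉ S, Spl B b (algebraMap F v.comp) := by
  let _ : StarRing F := starRingOfComm
  obtain ⟨T, hT⟩ := H961.exists_split_ae (k := F) (K := F) (A := B)
    (fun x => ⟨fun _ => ⟨x, rfl⟩, fun _ => rfl⟩) (deg_pos hB).ne' hB
  exact ⟨T, fun v hv =>
    @hT v hv v.comp (nnfPlace v) _ _ (algebraMap F v.comp) fun c => norm_alg v c⟩

/-- **Exponent two over a global function field.** -/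
theorem twf (h1 : LDV) (h2 : LQ2) : TWF := by
  intro k K _ _ _ _ _ n _ _ _ A l h
  obtain ⟨d, D, _, _, _, _, hD, a1, a2⟩ := h1 k K n 2 A l h
  obtain ⟨S, hS⟩ := spl_ae hD
  refine ⟨S, S.finite_toSet, fun a r hr ha => a2 r ?_⟩
  have : FiniteDimensional k k⟮r⟯ :=
    adjoin.finiteDimensional (Algebra.IsIntegral.isIntegral (R := k) r)
  have : GFF k⟮r⟯ := Hey.H63.gff_of_finite (k := k)
  refine H279.Sq.spl_of_local hD _ fun W => ?_
  obtain ⟨v, e, he, hvW⟩ := Hey.H63.exists_below (k := k) W
  obtain ⟨φ, hφ⟩ := Hey.H63.exists_compHom v W he hvW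
  rw [← show φ.comp (algebraMap k v.comp) = (algebraMap _ W.comp).comp (algebraMap k k⟮r⟯) from
    RingHom.ext hφ]
  by_cases hv : v ∈ S
  · let _ := nnfPlace v
    have := isUltra v
    obtain ⟨q, E, _, _, _, _, b1, b2, b3⟩ := a1 v.comp
    refine (b3 _ φ).2 ?_
    rcases (Nat.dvd_prime Nat.prime_two).1 b1 with rfl | rfl
    · exact (spl_of_maxfield b2 (L := v.comp) (finrank_self _) (Algebra.ofId _ E)).comp φ
    · refine h2 _ E b2 _ (ha v hv) _ φ (algebraMap _ W.comp (AdjoinSimple.gen k r)) ?_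
      rw [hφ, ← map_pow, ← map_add, ← map_add, map_eq_zero]
      exact Subtype.ext hr
  · exact (hS v hv).comp φ

end Vale.Agent.P011UQ7
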